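import Mathlib
import Vale.Agent.Lib.P065.KDefs
import Vale.Agent.Lib.P065.KEdge

namespace Vale.Agent.Lib.P065

open scoped Classical
open Finset

/-- Generic vertex property of `k`-edges: for a line through `b` containing no other point of
`P`, the `k`-edges at `b` (outgoing and incoming together) whose other endpoint lies on the
positive side are at most two more than those whose other endpoint lies on the negative side. -/
theorem kvert (P : Finset (ℝ × ℝ)) (hP : GenPos P) (k : ℕ) (b v : ℝ × ℝ) (hb : b ∈ P)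
    (hgen : ∀ q ∈ P, q ≠ b → xc b v q ≠ 0) :
    (P.filter (fun q => IsKEdge P k b q ∧ 0 < xc b v q)).card +
        (P.filter (fun q => IsKEdge P k q b ∧ 0 < xc b v q)).card ≤
      (P.filter (fun q => IsKEdge P k b q ∧ xc b v q < 0)).card +
        (P.filter (fun q => IsKEdge P k q b ∧ xc b v q < 0)).card + 2 := by
  -- outgoing on the positive side versus incoming on the negative side
  have hout : (P.filter (fun q => IsKEdge P k b q ∧ 0 < xc b v q)).card ≤
      (P.filter (fun q => IsKEdge P k q b ∧ xc b v q < 0)).card + 1 := by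
    have h1 : (P.filter (fun q => IsKEdge P k b q ∧ 0 < xc b v q)) ⊆
        (P.filter (fun q => q ≠ b ∧ 0 < xc b v q ∧
          ((P.filter (fun r => 0 < cr b q r)).card : ℤ) -
            (P.filter (fun r => cr b q r < 0)).card = 2 * (k : ℤ) + 2 - P.card)) := by
      intro q hq
      obtain ⟨hqP, hqH, hqx⟩ := Finset.mem_filter.1 hq
      have hqb : q ≠ b := Ne.symm hqH.1
      exact Finset.mem_filter.2 ⟨hqP, hqb, hqx,
        (kedge_out_iff P hP k b q hb hqP hqb).1 hqH⟩
    have h2 : (P.filter (fun q => q ≠ b ∧ xc b v q < 0 ∧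
          ((P.filter (fun r => 0 < cr b q r)).card : ℤ) -
            (P.filter (fun r => cr b q r < 0)).card = -(2 * (k : ℤ) + 2 - P.card))) ⊆
        (P.filter (fun q => IsKEdge P k q b ∧ xc b v q < 0)) := by
      intro q hq
      obtain ⟨hqP, hqb, hqx, hqm⟩ := Finset.mem_filter.1 hq
      exact Finset.mem_filter.2 ⟨hqP, (kedge_in_iff P hP k b q hb hqP hqb).2 (by omega), hqx⟩
    calc _ ≤ _ := Finset.card_le_card h1
      _ ≤ _ := vertex_diff P hP b v hb hgen _
      _ ≤ _ := Nat.add_le_add_right (Finset.card_le_card h2) 1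
  -- incoming on the positive side versus outgoing on the negative side
  have hin : (P.filter (fun q => IsKEdge P k q b ∧ 0 < xc b v q)).card ≤
      (P.filter (fun q => IsKEdge P k b q ∧ xc b v q < 0)).card + 1 := by
    have h1 : (P.filter (fun q => IsKEdge P k q b ∧ 0 < xc b v q)) ⊆
        (P.filter (fun q => q ≠ b ∧ 0 < xc b v q ∧
          ((P.filter (fun r => 0 < cr b q r)).card : ℤ) -
            (P.filter (fun r => cr b q r < 0)).card = (P.card : ℤ) - 2 - 2 * (k : ℤ))) := by
      intro q hq
      obtain ⟨hqP, hqH, hqx⟩ := Finset.mem_filter.1 hq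
      have hqb : q ≠ b := hqH.1
      exact Finset.mem_filter.2 ⟨hqP, hqb, hqx,
        (kedge_in_iff P hP k b q hb hqP hqb).1 hqH⟩
    have h2 : (P.filter (fun q => q ≠ b ∧ xc b v q < 0 ∧
          ((P.filter (fun r => 0 < cr b q r)).card : ℤ) -
            (P.filter (fun r => cr b q r < 0)).card = -((P.card : ℤ) - 2 - 2 * (k : ℤ)))) ⊆
        (P.filter (fun q => IsKEdge P k b q ∧ xc b v q < 0)) := by
      intro q hq
      obtain ⟨hqP, hqb, hqx, hqm⟩ := Finset.mem_filter.1 hq
      exact Finset.mem_filter.2 ⟨hqP, (kedge_out_iff P hP k b q hb hqP hqb).2 (by omega), hqx⟩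
    calc _ ≤ _ := Finset.card_le_card h1
      _ ≤ _ := vertex_diff P hP b v hb hgen _
      _ ≤ _ := Nat.add_le_add_right (Finset.card_le_card h2) 1
  omega

end Vale.Agent.Lib.P065
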